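import Vale.Agent.P240.Robinson.Classical
import Vale.Agent.P240.Modular.Radical
import Vale.Agent.P240.Pinned.Components
import Vale.Agent.P240.Rigid
import Vale.Agent.P240.Descent

/-!
# Quillen's conjecture for classical components in two characteristics, or classical and
alternating components, together with pinned components in any number of characteristics
-/

namespace Vale.Agent.Results.P240.ClassicalSocle

open Vale.Agent.P240

/-- A classical simple group of odd characteristic `t ≠ p`, or a nonabelian group with a Robinson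
`t`-subgroup. -/
def IsCompAt (p t : ℕ) (A : Type) [Group A] : Prop :=
  (t ≠ 2 ∧ p ≠ t ∧ (IsLinearComponent p t A ∨ IsSymplecticComponent p t A ∨
    IsUnitaryComponent p t A ∨ IsOrthogonalComponent p t A)) ∨
  ((∃ a b : A, a * b ≠ b * a) ∧ HasRobinson p t A)

/-- An alternating group of degree at least five, or a nonabelian group with a rigid three-local
subgroup. -/
def IsAltOrRigid (A : Type) [Group A] : Prop :=
  (∃ n : ℕ, 5 ≤ n ∧ Nonempty (A ≃* alternatingGroup (Fin n))) ∨
    ((∃ a b : A, a * b ≠ b * a) ∧ HasRigidSubgroup A)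

/-- When `p = 2`, a group `PSL(2, q)` with `q ≥ 7` odd and no field
automorphism of order two, or a nonabelian group with a pinned cycle. -/
def IsPinned (p : ℕ) (A : Type) [Group A] : Prop :=
  (p = 2 ∧ IsPSL2Component A) ∨ ((∃ a b : A, a * b ≠ b * a) ∧ HasPinnedCycle p A)

theorem IsPinned.spec {p : ℕ} {A : Type} [Group A] (h : IsPinned p A) :
    (∃ a b : A, a * b ≠ b * a) ∧ HasPinnedCycle p A := by
  rcases h with ⟨rfl, h⟩ | h
  · exact ⟨h.hasPinnedCycle.2, h.hasPinnedCycle.1⟩
  · exact h

theorem IsCompAt.spec {p t : ℕ} [Fact p.Prime] [Fact t.Prime] {A : Type} [Group A]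
    (h : IsCompAt p t A) : (∃ a b : A, a * b ≠ b * a) ∧ HasRobinson p t A :=
  h.elim (fun h => robinson_of_classical h.1 h.2.1 h.2.2) id

theorem center_trivial {A : Type} [Group A] [IsSimpleGroup A] (h : ∃ a b : A, a * b ≠ b * a)
    (c : A) (hc : ∀ d, c * d = d * c) : c = 1 := by
  obtain ⟨a, b, hab⟩ := h
  have hn : (Subgroup.center A).Normal := inferInstance
  rcases hn.eq_bot_or_eq_top with h | h
  · have hm : c ∈ Subgroup.center A := Subgroup.mem_center_iff.2 fun d => (hc d).symm
    rw [h] at hm
    exact Subgroup.mem_bot.1 hm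
  · exact absurd (Subgroup.mem_center_iff.1 (h ▸ Subgroup.mem_top b) a) hab

/-- Let `p`, `r`, `s` be primes with `p ≠ r`, `G` a finite group without nontrivial normal
`p`-subgroups, `S` a solvable normal subgroup, and suppose that `G ⧸ S` has a normal subgroup with
trivial centraliser which is a product of simple groups, each of which is pinned (for instance
`PSL(2, q)` when `p = 2`, in any number of characteristics), or classical of characteristic `r`
(or with a Robinson `r`-subgroup), or, for all of the others alike, either classical of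
characteristic `s` (or with a Robinson `s`-subgroup) or, when `p = 2`, alternating or rigid. Then
the poset of nontrivial elementary abelian `p`-subgroups of `G` has nonzero reduced homology over
the field with `r` elements, and also over the rationals if none is of the second kind. -/
theorem result {G : Type} [Group G] [Finite G] {p r s : ℕ} [Fact p.Prime] [Fact r.Prime]
    [Fact s.Prime] (hpr : p ≠ r)
    (hOp : ∀ N : Subgroup G, N.Normal → IsPGroup p N → N = ⊥)
    (S : Subgroup G) [S.Normal] (hS : Group.IsSolvable S)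
    {ι : Type} [Fintype ι] (A : ι → Type) [∀ i, Group (A i)] [∀ i, Finite (A i)]
    (hsimple : ∀ i, IsSimpleGroup (A i))
    (hA : (∀ i, IsPinned p (A i) ∨ IsCompAt p r (A i) ∨ IsCompAt p s (A i)) ∨
      (p = 2 ∧ ∀ i, IsPinned p (A i) ∨ IsCompAt p r (A i) ∨ IsAltOrRigid (A i)))
    (L : Subgroup (G ⧸ S)) (hL : L.Normal)
    (hC : Subgroup.centralizer (L : Set (G ⧸ S)) = ⊥)
    (e : ((i : ι) → A i) ≃* L) :
    HasReducedHomology (ZMod r) (elemAbelianSubgroups p G) ∧
      ((∀ i, IsPinned p (A i) ∨ IsCompAt p s (A i)) ∨
          (p = 2 ∧ ∀ i, IsPinned p (A i) ∨ IsAltOrRigid (A i)) →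
        HasReducedHomology ℚ (elemAbelianSubgroups p G)) := by
  have hex : ∀ i, ∃ (B : Type) (_ : Group B) (_ : Finite B), Nonempty (A i ≃* B) ∧
      IsSimpleGroup B ∧ (∀ b : B, (∀ b', b * b' = b' * b) → b = 1) ∧
      (IsAltOrRigid (A i) → Nonempty (SepData B)) := by
    intro i
    have := hsimple i
    by_cases h : IsAltOrRigid (A i)
    · obtain ⟨B, i1, i2, h1, h2, h3, h4⟩ := exists_model (A i) h
      exact ⟨B, i1, i2, h1, h2, h3, fun _ => h4⟩
    · refine ⟨A i, inferInstance, inferInstance, ⟨MulEquiv.refl _⟩, inferInstance,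
        center_trivial ?_, fun h' => absurd h' h⟩
      rcases hA with hA | ⟨-, hA⟩
      · exact (hA i).elim (fun h => h.spec.1) fun h => h.elim (fun h => h.spec.1) fun h => h.spec.1
      · exact (hA i).elim (fun h => h.spec.1) fun h' => (h'.resolve_right h).spec.1
  choose B hBG hBF hBe hBs hBc hBD using hex
  let eq : ((i : ι) → B i) ≃* L := (MulEquiv.piCongrRight fun i => (hBe i).some.symm).trans e
  have hrange : (L.subtype.comp eq.toMonoidHom).range = L := by
    ext x
    refine ⟨?_, fun hx => ⟨eq.symm ⟨x, hx⟩, by simp⟩⟩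
    rintro ⟨a, rfl⟩
    exact (eq a).2
  have hrob : ∀ {t : ℕ} [Fact t.Prime] (i), IsCompAt p t (A i) → HasRobinson p t (B i) :=
    fun i h => h.spec.2.of_equiv (hBe i).some
  have hpin : ∀ i, IsPinned p (A i) → HasPinnedCycle p (B i) :=
    fun i h => h.spec.2.of_equiv (hBe i).some
  have hker : Group.IsSolvable (QuotientGroup.mk' S).ker := by
    rw [QuotientGroup.ker_mk']
    exact hS
  refine ⟨?_, ?_⟩
  · refine Modular.hasReducedHomology_descend (ZMod r) (K := AlgebraicClosure (ZMod r))
      (hasReducedHomology_radical_of_mixed (p := p) (r := r) (s := s)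
        (L.subtype.comp eq.toMonoidHom) (L.subtype_injective.comp eq.injective)
        (hrange.symm ▸ hL) (by rw [hrange]; exact hC) hBs hBc ?_
        (Ne.symm hpr) (AlgebraicClosure (ZMod r)) (QuotientGroup.mk' S)
        (QuotientGroup.mk'_surjective S) hker hOp)
    exact hA.imp (fun h i => (h i).imp (hpin i) (Or.imp (hrob i) (hrob i)))
      fun h => ⟨h.1, fun i => (h.2 i).imp (hpin i) (Or.imp (hrob i) (hBD i))⟩
  · intro h
    have hU : Uniform p s B :=
      h.imp (fun h i => (h i).imp (hpin i) (hrob i))
        fun h => ⟨h.1, fun i => (h.2 i).imp (hpin i) (hBD i)⟩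
    exact hasReducedHomology_rat (hasReducedHomology_radical_of_links
      (L.subtype.comp eq.toMonoidHom) (L.subtype_injective.comp eq.injective) (hrange.symm ▸ hL)
      (by rw [hrange]; exact hC) hBs hBc hU.hasLinks (QuotientGroup.mk' S)
      (QuotientGroup.mk'_surjective S) hker hOp)

end Vale.Agent.Results.P240.ClassicalSocle
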